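import Mathlib
import Vale.Agent.H15.ClassDef
import Vale.Agent.H15.Closure

namespace Vale.Agent.Results.P194.ClassSofic

open Vale.Agent.H15

universe u

/-- Let `K` be a division ring (for instance a field) of characteristic `p`.  Then `K[G]` is stably
finite for every group `G` in the smallest class of groups that contains the sofic groups and is
closed under local embeddability, finite-index overgroups, and extensions by kernels all of whose
nontrivial finitely generated subgroups have a nontrivial homomorphism to `ℤ / p`. In particular
this holds for every extension of such a kernel by a sofic group. -/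
theorem result {K : Type*} [DivisionRing K] (p : ℕ) [CharP K p] :
    (∀ (G : Type u) [Group G], InClass.{u} p G → IsStablyFiniteRing (MonoidAlgebra K G)) ∧
    (∀ (G : Type u) [Group G] (N : Subgroup G) [N.Normal],
      (∀ H : Subgroup G, H ≤ N → H.FG → H ≠ ⊥ →
        ∃ χ : H →* Multiplicative (ZMod p), χ ≠ 1) →
      IsSofic (G ⧸ N) → IsStablyFiniteRing (MonoidAlgebra K G)) := by
  refine ⟨fun G _ hG => stablyFinite_of_inClass p hG, fun G _ N _ hN hQ => ?_⟩
  exact stablyFinite_of_inClass p (InClass.extension G N hN (InClass.sofic _ hQ))

end Vale.Agent.Results.P194.ClassSofic
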