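import Mathlib
import Vale.Agent.H15.Conserv

namespace Vale.Agent.Results.P194.ExtLocInd

/-- Let `K` be a division ring (for instance a field) of characteristic `p`, and `N` a normal
subgroup of an arbitrary group `G` such that every nontrivial finitely generated subgroup of `N`
has a nontrivial homomorphism to `ℤ / p` (to `ℤ` when `p = 0`).  If `K[G ⧸ N]` is directly finite
(stably finite) then `K[G]` is directly finite (stably finite).  In particular (`N = G`) `K[G]`
is stably finite whenever every nontrivial finitely generated subgroup of `G` maps onto `ℤ / p`. -/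
theorem result {K : Type*} [DivisionRing K] (p : ℕ) [CharP K p] {G : Type*} [Group G]
    (N : Subgroup G) [N.Normal]
    (hN : ∀ H : Subgroup G, H ≤ N → H.FG → H ≠ ⊥ →
      ∃ χ : H →* Multiplicative (ZMod p), χ ≠ 1) :
    (IsDedekindFiniteMonoid (MonoidAlgebra K (G ⧸ N)) →
      IsDedekindFiniteMonoid (MonoidAlgebra K G)) ∧
    (IsStablyFiniteRing (MonoidAlgebra K (G ⧸ N)) → IsStablyFiniteRing (MonoidAlgebra K G)) ∧
    (N = ⊤ → IsStablyFiniteRing (MonoidAlgebra K G)) := by
  have hp : p.Prime ∨ p = 0 := CharP.char_is_prime_or_zero K p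
  have hS : IsStablyFiniteRing (MonoidAlgebra K (G ⧸ N)) →
      IsStablyFiniteRing (MonoidAlgebra K G) := fun h =>
    ⟨fun n => Vale.Agent.H15.matrix_dedekind hp hN n inferInstance⟩
  refine ⟨fun h => ?_, hS, fun hT => hS ?_⟩
  · have e : ∀ (R : Type _) [Ring R], IsDedekindFiniteMonoid (Matrix (Fin 1) (Fin 1) R) ↔
        IsDedekindFiniteMonoid R := by
      intro R _
      let f : Matrix (Fin 1) (Fin 1) R ≃+* R := Matrix.uniqueRingEquiv
      exact ⟨fun _ => .of_injective (f.symm : R →* Matrix (Fin 1) (Fin 1) R) f.symm.injective,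
        fun _ => .of_injective (f : Matrix (Fin 1) (Fin 1) R →* R) f.injective⟩
    rw [← e] at h ⊢
    exact Vale.Agent.H15.matrix_dedekind hp hN 1 h
  · subst hT
    have : Subsingleton (G ⧸ (⊤ : Subgroup G)) := QuotientGroup.subsingleton_quotient_top
    exact IsStablyFiniteRing.of_injective
      (MonoidAlgebra.uniqueRingEquiv (R := K) (G ⧸ (⊤ : Subgroup G)))
      (MonoidAlgebra.uniqueRingEquiv (R := K) (G ⧸ (⊤ : Subgroup G))).injective

end Vale.Agent.Results.P194.ExtLocInd
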